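import Vale.Agent.P363.Spec
import Vale.Agent.P363.Tool.Weak.Poisson

/-!
P363: exact derivatives of the comparison functions `P x * F ‖x‖` and of the tails
`r ^ p * exp (-b r)`, their products with `z - h` and `z ^ 2 + κ`.
-/

noncomputable section

namespace Vale.Agent.P363.Bar

open MeasureTheory Filter Set
open scoped BigOperators Topology

lemma norm_sq_eq_sum (x : Space) : ‖x‖ ^ 2 = ∑ a : Fin 3, x a ^ 2 :=
  EuclideanSpace.real_norm_sq_eq x

lemma hasFDerivAt_norm' {x : Space} (hx : x ≠ 0) :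
    HasFDerivAt (fun y : Space => ‖y‖) (‖x‖⁻¹ • innerSL ℝ x) x := by
  have h := (hasStrictFDerivAt_norm_sq x).hasFDerivAt.sqrt (by positivity)
  simp only [Real.sqrt_sq (norm_nonneg _)] at h
  refine h.congr_fderiv ?_
  ext y
  simp
  field_simp

lemma hasFDerivAt_coord (a : Fin 3) (x : Space) :
    HasFDerivAt (fun y : Space => y a) (EuclideanSpace.proj a : Space →L[ℝ] ℝ) x :=
  (EuclideanSpace.proj a : Space →L[ℝ] ℝ).hasFDerivAt

lemma deriv3_coord (a b : Fin 3) (x : Space) :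
    deriv3 a (fun y : Space => y b) x = if b = a then 1 else 0 := by
  rw [deriv3, (hasFDerivAt_coord b x).fderiv]
  show unit3 a b = _
  simp [unit3, PiLp.single_apply]

lemma deriv3_height (a : Fin 3) (x : Space) :
    deriv3 a height x = if (2 : Fin 3) = a then 1 else 0 := deriv3_coord a 2 x

lemma differentiableAt_radial {F : ℝ → ℝ} {d : ℝ} {x : Space} (hx : x ≠ 0)
    (hF : HasDerivAt F d ‖x‖) : DifferentiableAt ℝ (fun y : Space => F ‖y‖) x :=
  (hF.comp_hasFDerivAt x (hasFDerivAt_norm' hx)).differentiableAt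

/-- The gradient of a radial function. -/
lemma deriv3_radial {F : ℝ → ℝ} {d : ℝ} {x : Space} (hx : x ≠ 0)
    (hF : HasDerivAt F d ‖x‖) (a : Fin 3) :
    deriv3 a (fun y : Space => F ‖y‖) x = d * x a / ‖x‖ := by
  have hh := hF.comp_hasFDerivAt x (hasFDerivAt_norm' hx)
  rw [deriv3, show (fun y : Space => F ‖y‖) = F ∘ fun y : Space => ‖y‖ from rfl, hh.fderiv]
  simp [unit3, EuclideanSpace.inner_single_right]
  ring

/-- The Laplacian of `P x * F ‖x‖`. -/
lemma lap_mul_radial {P : Space → ℝ} {F F' : ℝ → ℝ} {d2 : ℝ} {x : Space} (hx : x ≠ 0)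
    (hP : ContDiffAt ℝ 2 P x) (hF : ∀ t : ℝ, 0 < t → HasDerivAt F (F' t) t)
    (hF' : HasDerivAt F' d2 ‖x‖) :
    lap (fun y => P y * F ‖y‖) x = lap P x * F ‖x‖
      + 2 * (∑ a : Fin 3, x a * deriv3 a P x) * F' ‖x‖ / ‖x‖
      + P x * (d2 + 2 * F' ‖x‖ / ‖x‖) := by
  have hr : 0 < ‖x‖ := norm_pos_iff.2 hx
  obtain ⟨U, hU, hPU⟩ := hP.contDiffOn le_rfl (by simp)
  obtain ⟨W, hWU, hWo, hxW⟩ := mem_nhds_iff.1 hU
  have hPW : ContDiffOn ℝ 2 P W := hPU.mono hWU
  have key : ∀ a : Fin 3, deriv3 a (fun y => P y * F ‖y‖) =ᶠ[𝓝 x]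
      fun y => deriv3 a P y * F ‖y‖ + P y * (F' ‖y‖ / ‖y‖ * y a) := by
    intro a
    filter_upwards [hWo.mem_nhds hxW, isOpen_ne.mem_nhds hx] with y hyW hy
    have hy0 : 0 < ‖y‖ := norm_pos_iff.2 hy
    rw [deriv3_mul ((hPW.contDiffAt (hWo.mem_nhds hyW)).differentiableAt two_ne_zero)
      (differentiableAt_radial hy (hF _ hy0)) a, deriv3_radial hy (hF _ hy0) a]
    ring
  have hdP : ∀ a, DifferentiableAt ℝ (deriv3 a P) x := fun a =>
    ((contDiffOn_deriv3 a hWo (m := 1) hPW (by norm_num)).contDiffAt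
      (hWo.mem_nhds hxW)).differentiableAt one_ne_zero
  have hP1 : DifferentiableAt ℝ P x := hP.differentiableAt two_ne_zero
  have hF1 := hF _ hr
  have hG : HasDerivAt (fun t => F' t / t) ((d2 * ‖x‖ - F' ‖x‖ * 1) / ‖x‖ ^ 2) ‖x‖ :=
    hF'.div (hasDerivAt_id _) hr.ne'
  have hFd := differentiableAt_radial hx hF1
  have hGd := differentiableAt_radial hx hG
  have hc : ∀ a : Fin 3, DifferentiableAt ℝ (fun y : Space => y a) x := fun a =>
    (hasFDerivAt_coord a x).differentiableAt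
  have second : ∀ a : Fin 3, deriv3 a (deriv3 a fun y => P y * F ‖y‖) x =
      deriv3 a (deriv3 a P) x * F ‖x‖ + deriv3 a P x * (F' ‖x‖ * x a / ‖x‖)
      + (deriv3 a P x * (F' ‖x‖ / ‖x‖ * x a) + P x *
        ((d2 * ‖x‖ - F' ‖x‖ * 1) / ‖x‖ ^ 2 * x a / ‖x‖ * x a + F' ‖x‖ / ‖x‖ * 1)) := by
    intro a
    show fderiv ℝ (deriv3 a fun y => P y * F ‖y‖) x (unit3 a) = _
    rw [(key a).fderiv_eq]
    change deriv3 a (fun y => deriv3 a P y * F ‖y‖ + P y * (F' ‖y‖ / ‖y‖ * y a)) x = _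
    rw [deriv3_add (f := fun y => deriv3 a P y * F ‖y‖)
        (g := fun y => P y * (F' ‖y‖ / ‖y‖ * y a)) ((hdP a).mul hFd) (hP1.mul (hGd.mul (hc a))) a,
      deriv3_mul (f := deriv3 a P) (g := fun y => F ‖y‖) (hdP a) hFd a,
      deriv3_mul (f := P) (g := fun y => F' ‖y‖ / ‖y‖ * y a) hP1 (hGd.mul (hc a)) a,
      deriv3_mul (f := fun y => F' ‖y‖ / ‖y‖) (g := fun y => y a) hGd (hc a) a,
      deriv3_radial hx hF1 a, deriv3_radial (F := fun t => F' t / t) hx hG a,
      deriv3_coord a a x, if_pos rfl]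
  simp only [lap, second, Fin.sum_univ_three]
  have hs := norm_sq_eq_sum x
  rw [Fin.sum_univ_three] at hs
  field_simp
  linear_combination (-(P x * (d2 * ‖x‖ - F' ‖x‖))) * hs

/-- The tail `r ^ p * exp (-b r)`; `tailG a k = tail (k / a - 2) a`. -/
def tail (p b r : ℝ) : ℝ := r ^ p * Real.exp (-(b * r))

lemma tailG_eq (a k : ℝ) : tailG a k = tail (k / a - 2) a := rfl

lemma tail_pos {r : ℝ} (p b : ℝ) (hr : 0 < r) : 0 < tail p b r :=
  mul_pos (Real.rpow_pos_of_pos hr p) (Real.exp_pos _)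

lemma tail_add {r : ℝ} (p s b : ℝ) (hr : 0 < r) : tail (p + s) b r = r ^ s * tail p b r := by
  rw [tail, tail, Real.rpow_add hr]; ring

lemma hasDerivAt_tail (p b : ℝ) {t : ℝ} (ht : 0 < t) :
    HasDerivAt (tail p b) ((p / t - b) * tail p b t) t := by
  have h := (Real.hasDerivAt_rpow_const (x := t) (p := p) (Or.inl ht.ne')).mul
    (((hasDerivAt_id t).const_mul b).neg.exp)
  refine h.congr_deriv ?_
  simp only [tail, id, Pi.neg_apply, mul_one]
  rw [Real.rpow_sub_one ht.ne']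
  field_simp
  ring

lemma hasDerivAt_tail' (p b : ℝ) {t : ℝ} (ht : 0 < t) :
    HasDerivAt (fun u => (p / u - b) * tail p b u)
      (((p / t - b) ^ 2 - p / t ^ 2) * tail p b t) t := by
  have h := ((((hasDerivAt_const t p).div (hasDerivAt_id t) ht.ne')).sub_const b).mul
    (hasDerivAt_tail p b ht)
  refine h.congr_deriv ?_
  simp only [id, mul_one, Pi.div_apply]
  field_simp
  ring

lemma contDiffOn_tail (p b : ℝ) {m : WithTop ℕ∞} :
    ContDiffOn ℝ m (fun x : Space => tail p b ‖x‖) {x | x ≠ 0} := by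
  intro x hx
  have hn : ContDiffAt ℝ m (fun y : Space => ‖y‖) x := contDiffAt_norm ℝ hx
  exact ((hn.rpow_const_of_ne (norm_ne_zero_iff.2 hx)).mul
    ((contDiffAt_const.mul hn).neg.exp)).contDiffWithinAt

lemma contDiff_height {m : WithTop ℕ∞} : ContDiff ℝ m height :=
  (EuclideanSpace.proj (2 : Fin 3) : Space →L[ℝ] ℝ).contDiff

lemma contDiffOn_mul_tail {P : Space → ℝ} {m : WithTop ℕ∞} (hP : ContDiff ℝ m P) (p b : ℝ) :
    ContDiffOn ℝ m (fun x : Space => P x * tail p b ‖x‖) {x | x ≠ 0} :=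
  hP.contDiffOn.mul (contDiffOn_tail p b)

/-- The Laplacian of `P x * tail p b ‖x‖`. -/
lemma lap_mul_tail {P : Space → ℝ} (hP : ContDiff ℝ 2 P) (p b : ℝ) {x : Space} (hx : x ≠ 0) :
    lap (fun y => P y * tail p b ‖y‖) x = tail p b ‖x‖ * (lap P x
      + 2 * (∑ a : Fin 3, x a * deriv3 a P x) * (p / ‖x‖ ^ 2 - b / ‖x‖)
      + P x * (b ^ 2 - 2 * b * (p + 1) / ‖x‖ + p * (p + 1) / ‖x‖ ^ 2)) := by
  have hr : 0 < ‖x‖ := norm_pos_iff.2 hx
  rw [lap_mul_radial hx hP.contDiffAt (fun t ht => hasDerivAt_tail p b ht)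
    (hasDerivAt_tail' p b hr)]
  field_simp
  ring

lemma sum_deriv3_height (x : Space) :
    ∑ a : Fin 3, x a * deriv3 a height x = height x := by
  simp [deriv3_height, height]

lemma lap_height : lap height = 0 := by
  funext x
  have h : ∀ a : Fin 3, deriv3 a height = fun _ => if (2 : Fin 3) = a then 1 else 0 :=
    fun a => funext fun y => deriv3_height a y
  simp [lap, h]

/-- The Laplacian of the radial tail. -/
lemma lap_tail (p b : ℝ) {x : Space} (hx : x ≠ 0) :
    lap (fun y => tail p b ‖y‖) x = tail p b ‖x‖ *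
      (b ^ 2 - 2 * b * (p + 1) / ‖x‖ + p * (p + 1) / ‖x‖ ^ 2) := by
  have h := lap_mul_tail (P := fun _ => (1 : ℝ)) contDiff_const p b hx
  have h0 : lap (fun _ : Space => (1 : ℝ)) x = 0 := by
    have h : ∀ a : Fin 3, deriv3 a (fun _ : Space => (1 : ℝ)) = fun _ => 0 :=
      fun a => funext fun y => deriv3_const 1 a y
    simp [lap, h]
  simpa [h0] using h

/-- The Laplacian of `(z - h)` times a tail. -/
lemma lap_height_sub_tail (p b h : ℝ) {x : Space} (hx : x ≠ 0) :
    lap (fun y => (height y - h) * tail p b ‖y‖) x = tail p b ‖x‖ *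
      ((height x - h) * (b ^ 2 - 2 * b * (p + 2) / ‖x‖ + p * (p + 3) / ‖x‖ ^ 2)
        + 2 * h * (p / ‖x‖ ^ 2 - b / ‖x‖)) := by
  have hd : ∀ a, deriv3 a (fun y => height y - h) = fun y => deriv3 a height y :=
    fun a => funext fun y => by simp [deriv3, fderiv_sub_const]
  rw [lap_mul_tail (contDiff_height.sub contDiff_const) p b hx]
  have h0 : lap (fun y => height y - h) x = 0 := by
    have := congrFun lap_height x
    simpa [lap, hd] using this
  simp only [h0, hd, sum_deriv3_height]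
  have hr : ‖x‖ ≠ 0 := norm_ne_zero_iff.2 hx
  field_simp
  ring

/-- The Laplacian of `z` times a tail. -/
lemma lap_height_tail (p b : ℝ) {x : Space} (hx : x ≠ 0) :
    lap (fun y => height y * tail p b ‖y‖) x = height x * tail p b ‖x‖ *
      (b ^ 2 - 2 * b * (p + 2) / ‖x‖ + p * (p + 3) / ‖x‖ ^ 2) := by
  have h := lap_height_sub_tail p b 0 hx
  simp only [sub_zero, mul_zero, zero_mul, add_zero] at h
  rw [h]; ring

/-- The Laplacian of `z² + κ` times a tail. -/
lemma lap_sq_tail (p b κ : ℝ) {x : Space} (hx : x ≠ 0) :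
    lap (fun y => (height y ^ 2 + κ) * tail p b ‖y‖) x = tail p b ‖x‖ * (2
      + 4 * height x ^ 2 * (p / ‖x‖ ^ 2 - b / ‖x‖)
      + (height x ^ 2 + κ) * (b ^ 2 - 2 * b * (p + 1) / ‖x‖ + p * (p + 1) / ‖x‖ ^ 2)) := by
  have hd : ∀ a, deriv3 a (fun y => height y ^ 2 + κ) =
      fun y => 2 * height y * deriv3 a height y := fun a => funext fun y => by
    simp only [deriv3]
    rw [fderiv_add_const, fderiv_fun_pow 2 (contDiff_height.differentiable two_ne_zero y)]
    simp
  rw [lap_mul_tail ((contDiff_height.pow 2).add contDiff_const) p b hx]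
  have hz : ∀ y : Space, DifferentiableAt ℝ (fun w => 2 * height w) y := fun y =>
    (contDiff_height.differentiable two_ne_zero y).const_mul 2
  have hconst : ∀ a : Fin 3, deriv3 a height = fun _ => if (2 : Fin 3) = a then 1 else 0 :=
    fun a => funext fun y => deriv3_height a y
  have h0 : lap (fun y => height y ^ 2 + κ) x = 2 := by
    simp only [lap, hd, hconst, Fin.sum_univ_three]
    simp [deriv3_const_mul (contDiff_height.differentiable two_ne_zero x), deriv3_height]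
  have h1 : ∑ a : Fin 3, x a * deriv3 a (fun y => height y ^ 2 + κ) x = 2 * height x ^ 2 := by
    simp only [hd, Fin.sum_univ_three, deriv3_height]
    simp [height]; ring
  rw [h0, h1]; ring

end Vale.Agent.P363.Bar
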